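import Vale.Agent.P330.H16.Kinds
import Vale.Agent.P330.H780.Mac2

/-!
# The unary macros of the content machine

Every macro is a closed expression in the combinators of `H16.Asm`; the coefficients are `1` and the
entries `cf j i` of a table (the values `s j (e i)`), so the same definitions serve the programs
over names.  `mac_ok` is the target `MacOK` of `H16.Kinds`.
-/

set_option autoImplicit false
set_option linter.unusedSectionVars false

namespace Vale.Agent.P330.H118

open Finset H16

/-! ### Definitions -/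

section Defs

variable {F : Type} [One F]

/-- `u + v` from two macros. -/
def add2 (a b : Mac F) : Mac F := lc [(1, a), (1, b)]

/-- Sum of three macros. -/
def add3 (a b c : Mac F) : Mac F := lc [(1, a), (1, b), (1, c)]

/-- The zero word. -/
def zeroM : Mac F := lc []

/-- `c_j u`, where `c_j` is the entry `j` of the list of constant registers (zero if there is no
such entry) -/
def smG (cs : List ℕ) (j : ℕ) : Mac F :=
  if j < cs.length then smM (cs.getD j 0) else zeroM

/-- `(1 + x_j) u` -/
def nxM (j : ℕ) : Mac F := add2 idM (mxM j)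

/-- `(1 + x_j + c_j) u` -/
def affM (cs : List ℕ) (j : ℕ) : Mac F := add3 idM (mxM j) (smG cs j)

/-- `u + T_j u` -/
def bcM (j : ℕ) : Mac F := add2 idM (trM j)

/-- `s_j u`, where `cf j i` is the value of `s_j` at `e i` -/
def sM (cf : ℕ → ℕ → F) (κ j : ℕ) : Mac F := lc ((List.range κ).map fun i => (cf j i, mxM i))

/-- `(1 + s_j + c_j) u` -/
def s1M (cf : ℕ → ℕ → F) (κ : ℕ) (cs : List ℕ) (j : ℕ) : Mac F :=
  add3 idM (sM cf κ j) (smG cs j)

/-- `u + s_j (u + T_j u)` -/
def ifaM (cf : ℕ → ℕ → F) (κ j : ℕ) : Mac F := add2 idM (comp (bcM j) (sM cf κ j))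

/-- stage `j` of the inverse transform -/
def iffM (cf : ℕ → ℕ → F) (κ j : ℕ) : Mac F :=
  add2 (ifaM cf κ j) (comp (add2 (ifaM cf κ j) (bcM j)) (mxM j))

/-- the part of a word at `x_j = 0`, made independent of `x_j` -/
def at0M (j : ℕ) : Mac F := add2 (nxM j) (comp (trM j) (mxM j))

/-- the part of a word at `x_j = 1`, made independent of `x_j` -/
def at1M (j : ℕ) : Mac F := add2 (mxM j) (comp (trM j) (nxM j))

/-- stage `j` of the transform -/
def ffM (cf : ℕ → ℕ → F) (κ j : ℕ) : Mac F := add2 (at0M j) (comp (at1M j) (sM cf κ j))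

/-- restriction to the numbers `< 2 ^ k` -/
def hM (κ k : ℕ) : Mac F := iterM nxM (List.range' k (κ - k))

/-- low degree extension of the restriction to the numbers `< 2 ^ k` -/
def ldeM (cf : ℕ → ℕ → F) (κ k : ℕ) : Mac F :=
  comp (hM κ k) (comp (iterM (iffM cf κ) (List.range k)) (iterM (ffM cf κ) (List.range κ).reverse))

/-- the inverse transform -/
def invM (cf : ℕ → ℕ → F) (κ : ℕ) : Mac F := iterM (iffM cf κ) (List.range κ)

/-- prefix mask of a number with the bits in the constant registers `cs` -/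
def preAux (cs : List ℕ) : ℕ → Mac F
  | 0 => zeroM
  | m + 1 => add2 (comp (nxM m) (smG cs m)) (comp (preAux cs m) (affM cs m))

/-- restriction to the numbers `< h`, `h ≤ 2 ^ k` with the bits in `cs` -/
def preM (κ k : ℕ) (cs : List ℕ) : Mac F := comp (hM κ k) (add2 (preAux cs k) (smG cs k))

/-- multiplication by the Lagrange polynomial of `p`; `cs` contain `s_j (pt p)` -/
def LM (cf : ℕ → ℕ → F) (κ k : ℕ) (cs : List ℕ) : Mac F := iterM (s1M cf κ cs) (List.range k)

/-- restriction to the point with the number `a < 2 ^ k`, with bits in `cs` -/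
def chM (κ k : ℕ) (cs : List ℕ) : Mac F :=
  iterM (fun j => if j < k then affM cs j else nxM j) (List.range κ)

/-- translation by the point with the number `p` -/
def trPM (κ p : ℕ) : Mac F := iterM trM ((List.range κ).filter fun j => p.testBit j)

/-- The code of the unary macros. -/
def mac (cf : ℕ → ℕ → F) (κ k : ℕ) (off : Bool → ℕ) : UM → List ℕ → Mac F
  | .tr j, _ => trM j
  | .mx j, _ => mxM j
  | .sum, _ => sumM
  | .hh, _ => hM κ k
  | .lde, _ => ldeM cf κ k
  | .inv, _ => invM cf κ
  | .nand, _ => comp (mxM 1) (nxM 0)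
  | .k0, _ => comp (nxM 1) (nxM 0)
  | .k1, _ => comp (nxM 1) (mxM 0)
  | .rd0, _ => iterM nxM (List.range κ)
  | .pre, cs => preM κ k cs
  | .LL, cs => LM cf κ k cs
  | .ch, cs => chM κ k cs
  | .off z, _ => trPM κ (off z)

end Defs

/-! ### Specifications -/

variable {κ : ℕ} {F : Type} [Field F] {pub : ℕ → Ct κ F} {env : List (ℕ × F)}

theorem Is.add2 {a b : Mac F} {A B : Ct κ F → Ct κ F} (ha : Is pub env a A)
    (hb : Is pub env b B) : Is pub env (add2 a b) fun u x => A u x + B u x :=
  (Is.lc (l := [(1, a), (1, b)]) (ops := [(1, A), (1, B)])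
    (.cons ⟨rfl, ha⟩ (.cons ⟨rfl, hb⟩ .nil))).congr fun u => by
      funext x; simp [opLc]

theorem Is.add3 {a b c : Mac F} {A B C : Ct κ F → Ct κ F} (ha : Is pub env a A)
    (hb : Is pub env b B) (hc : Is pub env c C) :
    Is pub env (add3 a b c) fun u x => A u x + B u x + C u x :=
  (Is.lc (l := [(1, a), (1, b), (1, c)]) (ops := [(1, A), (1, B), (1, C)])
    (.cons ⟨rfl, ha⟩ (.cons ⟨rfl, hb⟩ (.cons ⟨rfl, hc⟩ .nil)))).congr fun u => by
      funext x; simp [opLc, add_assoc]

theorem Is.zero : Is pub env zeroM fun _ _ => (0 : F) :=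
  (Is.lc (l := []) (ops := []) .nil).congr fun u => by funext x; simp [opLc]

theorem Is.smG {cs : List ℕ} {vs : List F} (h : cs.length = vs.length) (j : ℕ) :
    Is pub (cs.zip vs) (smG cs j) fun u x => vs.getD j 0 * u x := by
  unfold H118.smG
  split_ifs with hj
  · refine Is.sm ?_
    have hj' : j < vs.length := h ▸ hj
    rw [List.mem_iff_getElem]
    refine ⟨j, by simp [hj, hj'], ?_⟩
    simp [List.getD_eq_getElem?_getD, hj, hj']
  · refine Is.zero.congr fun u => ?_
    funext x
    rw [List.getD_eq_getElem?_getD, List.getElem?_eq_none (by omega)]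
    simp

theorem Is.nx (j : ℕ) : Is pub env (nxM j : Mac F) fun u x => (1 + bx j x) * u x :=
  (Is.add2 Is.id (Is.mx j)).congr fun u => by funext x; ring

theorem Is.aff {cs : List ℕ} {vs : List F} (h : cs.length = vs.length) (j : ℕ) :
    Is pub (cs.zip vs) (affM cs j) fun u x => (1 + bx j x + vs.getD j 0) * u x :=
  (Is.add3 Is.id (Is.mx j) (Is.smG h j)).congr fun u => by funext x; ring

theorem Is.bc (j : ℕ) : Is pub env (bcM j : Mac F) fun u x => u x + H16.tr (e κ j) u x :=
  Is.add2 Is.id (Is.tr j)

theorem is_lc_map {l : List ℕ} {c : ℕ → F} {m : ℕ → Mac F} {op : ℕ → Ct κ F → Ct κ F}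
    (h : ∀ i ∈ l, Is pub env (m i) (op i)) :
    Is pub env (lc (l.map fun i => (c i, m i))) fun u x => (l.map fun i => c i * op i u x).sum := by
  have h1 : List.Forall₂ (fun (q : F × Mac F) (p : F × (Ct κ F → Ct κ F)) =>
      q.1 = p.1 ∧ Is pub env q.2 p.2) (l.map fun i => (c i, m i)) (l.map fun i => (c i, op i)) := by
    induction l with
    | nil => exact .nil
    | cons i l ih =>
      exact .cons ⟨rfl, h i (List.mem_cons_self ..)⟩ (ih fun j hj => h j (List.mem_cons_of_mem _ hj))
  refine (Is.lc h1).congr fun u => ?_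
  clear h1 h
  induction l with
  | nil => rfl
  | cons i l ih => funext x; simp only [List.map_cons, opLc, ih, List.sum_cons]

theorem list_sum_range {A : Type*} [AddCommMonoid A] (f : ℕ → A) (n : ℕ) :
    ((List.range n).map f).sum = ∑ j ∈ range n, f j := by
  induction n with
  | zero => simp
  | succ n ih => rw [List.range_succ, List.map_append, List.sum_append, ih,
      Finset.sum_range_succ]; simp

/-- An additive function from its values at the unit vectors. -/
theorem s_eq_sum (R : RSys κ F) (j : ℕ) (x : V2 κ) :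
    R.s j x = ((List.range κ).map fun i => R.s j (e κ i) * bx i x).sum := by
  rw [additive_eq (R.s_add j) x, list_sum_range]

theorem opIter_tr (f : ℕ → V2 κ) (l : List ℕ) (u : Ct κ F) :
    opIter (fun j v => H16.tr (f j) v) l u = H16.tr ((l.map f).sum) u := by
  induction l generalizing u with
  | nil => funext x; simp [opIter, H16.tr]
  | cons j l ih =>
    rw [opIter, ih]
    funext x
    simp only [H16.tr, List.map_cons, List.sum_cons]
    congr 1
    rw [add_comm (f j), add_assoc]

theorem pt_eq_sum (p : ℕ) :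
    (((List.range κ).filter fun j => p.testBit j).map fun j => e κ j).sum = pt κ p := by
  have h : ∀ l : List ℕ, ((l.filter fun j => p.testBit j).map fun j => e κ j).sum =
      (l.map fun j => if p.testBit j then e κ j else 0).sum := by
    intro l
    induction l with
    | nil => rfl
    | cons j l ih =>
      by_cases hj : p.testBit j = true
      · rw [List.filter_cons_of_pos hj, List.map_cons, List.map_cons, List.sum_cons,
          List.sum_cons, ih, if_pos hj]
      · rw [List.filter_cons_of_neg hj, List.map_cons, List.sum_cons, ih, if_neg hj, zero_add]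
  rw [h, list_sum_range]
  funext i
  rw [Finset.sum_apply, Finset.sum_eq_single (i : ℕ)]
  · by_cases hi : p.testBit i = true <;> simp [e, pt, hi]
  · intro j _ hj
    by_cases hi : p.testBit j = true <;> simp [e, hi, Ne.symm hj]
  · intro h
    exact absurd (Finset.mem_range.mpr i.2) h

theorem is_trP {p : ℕ} : Is pub env (trPM κ p : Mac F) (H16.tr (pt κ p)) := by
  refine (Is.iter fun j _ => Is.tr j).congr fun u => ?_
  rw [opIter_tr, pt_eq_sum]

theorem is_at0 (j : ℕ) : Is pub env (at0M j : Mac F) (at0 j) :=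
  (Is.add2 (Is.nx j) ((Is.tr j).comp (Is.mx j))).congr fun _ => rfl

theorem is_at1 (j : ℕ) : Is pub env (at1M j : Mac F) (at1 j) :=
  (Is.add2 (Is.mx j) ((Is.tr j).comp (Is.nx j))).congr fun _ => rfl

section R

variable (R : RSys κ F) {cf : ℕ → ℕ → F}

include R

theorem is_s {j : ℕ} (hcf : ∀ i < κ, cf j i = R.s j (e κ i)) :
    Is pub env (sM cf κ j) fun u x => R.s j x * u x := by
  refine (is_lc_map (l := List.range κ) (c := cf j) (m := fun i => mxM i)
    (op := fun i u x => bx i x * u x) fun i _ => Is.mx i).congr fun u => ?_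
  funext x
  rw [s_eq_sum R j x, ← List.sum_map_mul_right]
  congr 1
  apply List.map_congr_left
  intro i hi
  rw [hcf i (List.mem_range.mp hi)]
  ring

theorem is_iff {j : ℕ} (hcf : ∀ i < κ, cf j i = R.s j (e κ i)) :
    Is pub env (iffM cf κ j) (iffOp R j) :=
  (Is.add2 (Is.add2 Is.id ((Is.bc j).comp (is_s R hcf)))
    ((Is.add2 (Is.add2 Is.id ((Is.bc j).comp (is_s R hcf))) (Is.bc j)).comp (Is.mx j))).congr
    fun _ => rfl

theorem is_ff {j : ℕ} (hcf : ∀ i < κ, cf j i = R.s j (e κ i)) :
    Is pub env (ffM cf κ j) (ffOp R j) :=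
  (Is.add2 (is_at0 j) ((is_at1 j).comp (is_s R hcf))).congr fun _ => rfl

theorem is_h (hκ : 0 < κ) {k : ℕ} (hk : k ≤ κ) : Is pub env (hM κ k : Mac F) (pre (2 ^ k)) :=
  (Is.iter fun j _ => Is.nx j).congr fun u => opIter_pre R hκ hk u

theorem is_inv (hcf : ∀ j < κ, ∀ i < κ, cf j i = R.s j (e κ i)) :
    Is pub env (invM cf κ) (invOp R) :=
  Is.iter fun j hj => is_iff R (hcf j (List.mem_range.mp hj))

theorem is_lde (hκ : 0 < κ) {k : ℕ} (hk : k ≤ κ)
    (hcf : ∀ j < κ, ∀ i < κ, cf j i = R.s j (e κ i)) :
    Is pub env (ldeM cf κ k) (ldeOp R k) :=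
  ((is_h R hκ hk).comp ((Is.iter fun j hj => is_iff R
    (hcf j ((List.mem_range.mp hj).trans_le hk))).comp (Is.iter fun j hj => is_ff R
      (hcf j (List.mem_range.mp (List.mem_reverse.mp hj)))))).congr fun _ => rfl

variable {cs : List ℕ} {vs : List F}

theorem is_preAux (h : cs.length = vs.length) (m : ℕ) :
    Is pub (cs.zip vs) (preAux cs m) fun u => preR u (fun j => vs.getD j 0) m := by
  induction m with
  | zero => exact Is.zero
  | succ m ih =>
    exact (Is.add2 ((Is.nx m).comp (Is.smG h m)) (ih.comp (Is.aff h m))).congr fun _ => rfl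

theorem is_pre (hκ : 0 < κ) {k : ℕ} (hk : k ≤ κ) (h : cs.length = vs.length) :
    Is pub (cs.zip vs) (preM κ k cs) (preOp k fun j => vs.getD j 0) :=
  ((is_h R hκ hk).comp (Is.add2 (is_preAux R h k) (Is.smG h k))).congr fun _ => rfl

theorem is_L {k : ℕ} (hk : k ≤ κ) (hcf : ∀ j < κ, ∀ i < κ, cf j i = R.s j (e κ i))
    (h : cs.length = vs.length) :
    Is pub (cs.zip vs) (LM cf κ k cs) (LOp R k fun j => vs.getD j 0) := by
  refine (Is.iter (O := fun j v x => (1 + R.s j x + vs.getD j 0) * v x) fun j hj => ?_).congr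
    fun u => ?_
  · exact (Is.add3 Is.id (is_s R (hcf j ((List.mem_range.mp hj).trans_le hk)))
      (Is.smG h j)).congr fun u => by funext x; ring
  · funext x
    rw [opIter_mul (fun j x => 1 + R.s j x + vs.getD j 0), list_prod_range]
    rfl

theorem is_ch {k : ℕ} (h : cs.length = vs.length) :
    Is pub (cs.zip vs) (chM κ k cs) (chOp k fun j => vs.getD j 0) := by
  refine (Is.iter (O := fun j v x => (1 + bx j x + if j < k then vs.getD j 0 else 0) * v x)
    fun j _ => ?_).congr fun u => ?_
  · by_cases hj : j < k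
    · simp only [if_pos hj]
      exact Is.aff h j
    · simp only [if_neg hj, add_zero]
      exact Is.nx j
  · funext x
    rw [opIter_mul (fun j x => 1 + bx j x + if j < k then vs.getD j 0 else 0), list_prod_range]
    rfl

theorem is_rd0 : Is pub env (iterM nxM (List.range κ) : Mac F) (chOp 0 fun _ => 0) := by
  refine (Is.iter (O := fun j v x => (1 + bx j x) * v x) fun j _ => Is.nx j).congr fun u => ?_
  funext x
  rw [opIter_mul (fun j x => 1 + bx j x), list_prod_range]
  simp [chOp]

/-- **The macros are right.** -/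
theorem mac_ok (hκ : 0 < κ) {k : ℕ} (hk : k ≤ κ) (off : Bool → ℕ)
    (hcf : ∀ j < κ, ∀ i < κ, cf j i = R.s j (e κ i)) (pub : ℕ → Ct κ F) :
    MacOK k off R pub (mac cf κ k off) := by
  intro m cs vs h
  cases m with
  | tr j => exact Is.tr j
  | mx j => exact Is.mx j
  | sum => exact Is.sum
  | hh => exact is_h R hκ hk
  | lde => exact is_lde R hκ hk hcf
  | inv => exact is_inv R hcf
  | nand =>
    exact ((Is.mx 1).comp (Is.nx 0)).congr fun u => funext fun x => (msk_isNand R hκ u x).symm
  | k0 => exact ((Is.nx 1).comp (Is.nx 0)).congr fun u => funext fun x => (msk_isK0 R hκ u x).symm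
  | k1 => exact ((Is.nx 1).comp (Is.mx 0)).congr fun u => funext fun x => (msk_isK1 R hκ u x).symm
  | rd0 => exact is_rd0 R
  | pre => exact is_pre R hκ hk h
  | LL => exact is_L R hk hcf h
  | ch => exact is_ch R h
  | off z => exact is_trP

end R

end Vale.Agent.P330.H118
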