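import Vale.Agent.P330.W.H118.TopU
import Vale.Agent.P330.H244.TopG

/-!
# The outputs of the content program are the contents after the step
-/

set_option autoImplicit false
set_option linter.unusedSimpArgs false
set_option linter.unusedSectionVars false

namespace Vale.Agent.P330.H118

open Finset H16

variable {F : Type} [Field F] {M : MP} {R : RSys M.κ F} {pub : ℕ → Ct M.κ F} {σ : Nm → Ct M.κ F}
  {c : Cont M.κ F}

theorem fw_congr (w : Ct M.κ F) {P P' : ℕ → Ct M.κ F} {s : ℕ} (h : ∀ i < s, P i = P' i) :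
    M.fw w P s = M.fw w P' s := by
  induction s with
  | zero => rfl
  | succ s ih =>
    show (fun x => M.fw w P s x + pre (2 ^ M.k) (P s) x) = _
    rw [ih fun i hi => h i (by omega), h s (by omega)]
    rfl

section

variable (hM : M.Good) (h : (M.pp R).Eqs M.off R pub σ) (hc : HoldsIn M σ c)

include hM h hc

theorem scalC : PP.Scal (M.pp R) pub σ (bF F c.z) fun j => σ (.t j) 0 := by
  have := h.scal hM.κ_pos
  rw [hc.z] at this
  exact this

theorem tcC {j : ℕ} (hj : j < M.k + 1) : σ (.tc j) = fun _ => bF F (c.t.testBit j) := by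
  rw [(scalC hM h hc).tc j hj, hc.t j hj]

theorem tmC (ht : 0 < c.t) {j : ℕ} (hj : j < M.k + 1) :
    σ (.tm j) = fun _ => bF F ((c.t - 1).testBit j) := by
  rw [(scalC hM h hc).tm j hj]
  have e1 : ∏ i ∈ range j, (1 + σ (.t i) 0) = ∏ i ∈ range j, (1 + bF F (c.t.testBit i)) :=
    Finset.prod_congr rfl fun i hi => by
      rw [hc.t i (by have := mem_range.1 hi; omega)]
  rw [e1, hc.t j hj, bF_pred R hM.κ_pos ht]

theorem zbC (b : Bool) : σ (.zb b) = fun _ => bF F (c.z == b) := by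
  rw [(scalC hM h hc).zb b, PP.zv_bF R hM.κ_pos]

theorem inpC (b : Bool) : M.inpM σ b = M.inp c b := by
  funext x
  unfold MP.inpM MP.inp
  rw [zbC hM h hc, zbC hM h hc, hc.w, hc.w]
  rcases bool_eq_or c.z b with hz | hz
  · subst hz
    cases hz : c.z <;> simp
  · have : b = !c.z := by rw [hz, Bool.not_not]
    subst this
    cases hz : c.z <;> simp

theorem fC {b : Bool} {s : ℕ} (hs : s ≤ M.L) : σ (.f b s) = M.fw (c.w b) (c.P b) s := by
  rw [MP.f_eq (h.eR b) hs, hc.w]
  exact fw_congr _ fun i hi => hc.P b i (by omega)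

/-- **The right hand side of the rule.** -/
theorem VC (b : Bool) : σ (.V b) = M.rhs c b (M.inp c b) := by
  have hS := scalC hM h hc
  have hf : σ (.f b M.L) = M.fw (σ (.w b)) (fun s => σ (.P b s)) M.L := MP.f_eq (h.eR b) le_rfl
  rw [MP.V_eq (h.eV b) hM.κ_pos hM.hnk (fun j hj => by rw [hS.pb j hj]) hS.one
    (MP.hQ_eq (h.eG1 b)) hf, inpC hM h hc, hc.Q, ← hf, fC hM h hc le_rfl]
  rfl

theorem pktC (hpub : ∀ s < M.L, pub (s + 1) = M.swE R s) (m : Bool) {a : ℕ} (ha : a < 2 ^ M.k)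
    (hb : ∀ j < M.k, σ (PP.ab m j) = fun _ => bF F (a.testBit j)) : Pkt M R pub σ m a where
  good := hM
  lt := ha
  one := (scalC hM h hc).one
  sw s hs := by rw [(scalC hM h hc).sw s hs, hpub s hs]
  bits := hb
  sol := Sol.append.2 ⟨h.eD m, Sol.append.2 ⟨Sol.range.2 (h.eU m),
    Sol.append.2 ⟨h.eA m, h.eE m⟩⟩⟩

/-- **The updates.** -/
theorem updC (hpub : ∀ s < M.L, pub (s + 1) = M.swE R s) (m b : Bool) {a : ℕ}
    (ha : a < 2 ^ M.k) (hb : ∀ j < M.k, σ (PP.ab m j) = fun _ => bF F (a.testBit j)) :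
    HoldsUpd M σ m b (M.addS R c b a (M.rhs c b (M.inp c b) (pt M.κ a))) := by
  have hU : Upn M R pub σ m b a c (M.rhs c b (M.inp c b) (pt M.κ a)) :=
    { pkt := pktC hM h hc hpub m ha hb
      sol := Sol.append.2 ⟨h.eN1 m b, Sol.append.2 ⟨h.eN2 m b, h.eN3 m b⟩⟩
      w := hc.w b
      P := hc.P b
      Q := hc.Q b
      LA := by rw [MP.LA_eq (h.eG1 b) hM.k_le hM.κ_pos, hc.w]
      LB := by rw [MP.LB_eq (h.eG1 b) hM.k_le hM.κ_pos, hc.w]
      val := by rw [VC hM h hc] }
  exact ⟨hU.wn, fun s hs => hU.Pn hs, hU.Qn⟩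

/-- **The outputs of the program are the contents after the step.** -/
theorem holdsOut (hpub : ∀ s < M.L, pub (s + 1) = M.swE R s) (ht : c.t ≤ 2 ^ M.k) (d : Bool) :
    HoldsOut M σ d (M.stepC R d c) :=
  holds_step hM h hc ht d
    (fun _ hlt => updC hM h hc hpub false _ hlt fun j hj => tcC hM h hc (by omega))
    (fun _ hpos => updC hM h hc hpub true _ (by omega) fun j hj => tmC hM h hc hpos (by omega))

end

end Vale.Agent.P330.H118
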