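import Vale.Agent.P330.H780.TopF

/-!
# The registers of the packets and of the updates

`Pkt` collects the hypotheses on the contents `σ` of the named registers: the equations of the
commands `prU m`, the bits of the slot `a`, the hard-wired words.  `Pkt.g`, `Pkt.U`, `Pkt.SA`, … give
the contents of the registers in closed form.  `Upn` does the same for the commands `prN m b`.
-/

set_option autoImplicit false
set_option linter.unusedSimpArgs false

namespace Vale.Agent.P330.H118

open Finset H16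

variable {F : Type} [Field F]

section

variable {κ k : ℕ} {off : Bool → ℕ} {R : RSys κ F} {pub : ℕ → Ct κ F} {σ : Nm → Ct κ F}

/-- sum with coefficients `1` -/
theorem sol_add {l : List (Cmd Nm (Kd F))} (h : Sol k off R pub σ l) {o : Nm} {as : List Nm}
    (hc : PP.add o as ∈ l) (x : V2 κ) : σ o x = (as.map fun a => σ a x).sum := by
  have := h _ hc
  simp only [PP.add, kdv] at this
  rw [this]
  clear this hc
  induction as with
  | nil => rfl
  | cons a as ih => simp only [List.map_cons, lcV, one_mul, List.sum_cons, ih]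

/-- linear combination, evaluated -/
theorem sol_lin {l : List (Cmd Nm (Kd F))} (h : Sol k off R pub σ l) {o : Nm}
    {cs : List F} {as : List Nm} (hc : (⟨o, .lin cs, as⟩ : Cmd Nm (Kd F)) ∈ l) (x : V2 κ) :
    σ o x = (List.zipWith (fun c a => c * σ a x) cs as).sum := by
  have := h _ hc
  simp only [kdv] at this
  rw [this]
  clear this hc
  induction as generalizing cs with
  | nil => cases cs <;> rfl
  | cons a as ih =>
    cases cs with
    | nil => rfl
    | cons c cs => simp only [List.map_cons, lcV, List.zipWith_cons_cons, List.sum_cons, ih]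

/-- product with a scalar, evaluated -/
theorem sol_smul {l : List (Cmd Nm (Kd F))} (h : Sol k off R pub σ l) {o a b : Nm}
    (hc : (⟨o, .smul, [a, b]⟩ : Cmd Nm (Kd F)) ∈ l) (x : V2 κ) :
    σ o x = σ a 0 * σ b x := by
  have := h _ hc
  simp only [kdv] at this
  rw [this]
  rfl

/-- unary operator with scalars -/
theorem sol_un {l : List (Cmd Nm (Kd F))} (h : Sol k off R pub σ l) {o a : Nm} {m : UM}
    {as : List Nm} (hc : (⟨o, .un m, a :: as⟩ : Cmd Nm (Kd F)) ∈ l) :
    σ o = opr k off R m (as.map fun b => σ b 0) (σ a) := by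
  have := h _ hc
  simp only [kdv] at this
  rw [this]
  simp only [List.map_cons, List.tail_cons, List.headD_cons, List.map_map]
  rfl

theorem zipWith_range (f g : ℕ → F) (n : ℕ) (h : Nm → F) (a : ℕ → Nm)
    (hg : ∀ i < n, h (a i) = g i) :
    (List.zipWith (fun c b => c * h b) ((List.range n).map f) ((List.range n).map a)).sum =
      ∑ i ∈ range n, f i * g i := by
  induction n with
  | zero => simp
  | succ n ih =>
    rw [List.range_succ, List.map_append, List.map_append, List.zipWith_append (by simp),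
      List.sum_append, ih fun i hi => hg i (by omega), Finset.sum_range_succ]
    simp [hg n (Nat.lt_succ_self n)]

theorem getD_map_range' (f : Nm → F) (a : ℕ → Nm) (m j : ℕ) (hj : j < m) :
    (((List.range m).map a).map f).getD j 0 = f (a j) := by
  simp [List.getD_eq_getElem?_getD, hj]

end

section

variable {M : MP} {R : RSys M.κ F} {pub : ℕ → Ct M.κ F} {σ : Nm → Ct M.κ F}

/-- Hypotheses on the packets of the mode `m` and of the slot `a`. -/
structure Pkt (M : MP) (R : RSys M.κ F) (pub : ℕ → Ct M.κ F) (σ : Nm → Ct M.κ F) (m : Bool)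
    (a : ℕ) : Prop where
  good : M.Good
  lt : a < 2 ^ M.k
  one : σ .one = fun _ => 1
  sw : ∀ s < M.L, σ (.sw s) = M.swE R s
  bits : ∀ j < M.k, σ (PP.ab m j) = fun _ => bF F (a.testBit j)
  sol : Sol M.k M.off R pub σ ((M.pp R).prU m)

namespace Pkt

variable {m : Bool} {a : ℕ} (h : Pkt M R pub σ m a)

include h

theorem lt' : a < 2 ^ M.κ := h.lt.trans_le (Nat.pow_le_pow_right (by norm_num) h.good.k_le)

theorem solD : Sol M.k M.off R pub σ ((M.pp R).prD m) := (Sol.append.1 h.sol).1

theorem solU {s : ℕ} (hs : s < M.L) : Sol M.k M.off R pub σ ((M.pp R).prUs m s) :=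
  Sol.range.1 (Sol.append.1 (Sol.append.1 h.sol).2).1 s hs

theorem solA : Sol M.k M.off R pub σ ((M.pp R).prA m) :=
  (Sol.append.1 (Sol.append.1 (Sol.append.1 h.sol).2).2).1

theorem solE : Sol M.k M.off R pub σ (PP.prE m) :=
  (Sol.append.1 (Sol.append.1 (Sol.append.1 h.sol).2).2).2

theorem ch (u : Ct M.κ F) :
    opr M.k M.off R .ch ((((List.range M.k).map (PP.ab m)).map fun b => σ b 0)) u = dl a u :=
  chOp_eq R h.good.κ_pos h.good.k_le h.lt (fun j hj => by
    rw [getD_map_range' (fun b => σ b 0) _ _ _ hj, h.bits j hj]) u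

/-- the first packet -/
theorem g0 : σ (.g m 0) = M.packet F a 0 := by
  have := sol_un h.solD (o := .g m 0) (a := .one) (m := .ch) (as := (List.range M.k).map (PP.ab m))
    (by simp [PP.prD, MP.pp])
  rw [this, h.ch, h.one]
  rfl

variable {s : ℕ}

theorem pi_of (hs : s < M.L) (hg : σ (.g m s) = M.packet F a s) {i : ℕ} (hi : i < M.k) :
    σ (.pi m s i) = fun _ => bF F ((M.pos a s).testBit i) := by
  have hS : Sol M.k M.off R pub σ ((M.pp R).prU1 m s) := (Sol.append.1 (h.solU hs)).1
  have hi' := Sol.range.1 hS i hi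
  have h1 := sol_un hi' (o := .px m s i) (a := .g m s) (m := .mx i) (as := []) (by simp)
  have h2 := sol_un hi' (o := .pi m s i) (a := .px m s i) (m := .sum) (as := []) (by simp)
  rw [h2, h1, hg]
  funext x
  exact sum_bx_dl_lt h.good.k_le (h.good.pos_lt h.lt hs.le) i

theorem S_of (hs : s < M.L) (hg : σ (.g m s) = M.packet F a s) {j : ℕ} (hj : j < M.k) :
    σ (.S m s j) = fun _ => R.s j (pt M.κ (M.pos a s)) := by
  have hS : Sol M.k M.off R pub σ ((M.pp R).prU2 m s) :=
    (Sol.append.1 (Sol.append.1 (h.solU hs)).2).1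
  have hj' := Sol.range.1 hS j hj
  funext x
  have h1 := sol_lin hj' (o := .S m s j) (cs := (List.range M.k).map ((M.pp R).sc j))
    (as := (List.range M.k).map (.pi m s)) (by simp [MP.pp]) x
  rw [h1, zipWith_range ((M.pp R).sc j) (fun i => bF F ((M.pos a s).testBit i)) M.k
    (fun b => σ b x) (.pi m s) fun i hi => by rw [h.pi_of hs hg hi]]
  exact s_bits_lt R h.good.k_le (h.good.pos_lt h.lt hs.le) (fun _ _ => rfl) j

theorem S'_of (hs : s < M.L) (hg : σ (.g m s) = M.packet F a s) {j : ℕ} (hj : j < M.k) :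
    σ (.S' m s j) = fun _ => R.s j (pt M.κ (M.pos a s ^^^ 2 ^ M.dir s)) := by
  have hS : Sol M.k M.off R pub σ ((M.pp R).prU2 m s) :=
    (Sol.append.1 (Sol.append.1 (h.solU hs)).2).1
  have hj' := Sol.range.1 hS j hj
  funext x
  have h1 := sol_lin hj' (o := .S' m s j) (cs := [1, R.s j (e M.κ (M.dir s))])
    (as := [.S m s j, .one]) (by simp [MP.pp]) x
  rw [h1, RSys.s_xor_pow]
  simp [h.S_of hs hg hj, h.one]

omit h in
theorem LL_of {f : ℕ → Nm} {p : ℕ} (hf : ∀ j < M.k, σ (f j) = fun _ => R.s j (pt M.κ p))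
    (u : Ct M.κ F) :
    opr M.k M.off R .LL (((List.range M.k).map f).map fun b => σ b 0) u =
      fun x => R.L M.k p x * u x :=
  LOp_eq R (fun j hj => by rw [getD_map_range' (fun b => σ b 0) _ _ _ hj, hf j hj]) u

theorem U_of (hs : s < M.L) (hg : σ (.g m s) = M.packet F a s) :
    σ (.U m s) = M.packU R a s := by
  have hS : Sol M.k M.off R pub σ ((M.pp R).prU3 m s) :=
    (Sol.append.1 (Sol.append.1 (h.solU hs)).2).2
  have h1 := sol_un hS (o := .u1 m s) (a := .sw s) (m := .LL) (as := (List.range M.k).map (.S m s))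
    (by simp [PP.prU3, MP.pp])
  have h2 := sol_un hS (o := .u2 m s) (a := .sw s) (m := .LL)
    (as := (List.range M.k).map (.S' m s)) (by simp [PP.prU3, MP.pp])
  rw [LL_of (fun j hj => h.S_of hs hg hj), h.sw s hs] at h1
  rw [LL_of (fun j hj => h.S'_of hs hg hj), h.sw s hs] at h2
  funext x
  rw [sol_add hS (o := .U m s) (as := [.u1 m s, .u2 m s]) (by simp [PP.prU3]) x]
  simp [h1, h2, MP.packU]

theorem g_succ (hs : s < M.L) (hg : σ (.g m s) = M.packet F a s) :
    σ (.g m (s + 1)) = M.packet F a (s + 1) := by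
  have hS : Sol M.k M.off R pub σ ((M.pp R).prU3 m s) :=
    (Sol.append.1 (Sol.append.1 (h.solU hs)).2).2
  have h1 := sol_un hS (o := .hU m s) (a := .U m s) (m := .hh) (as := []) (by simp [PP.prU3])
  rw [h.U_of hs hg] at h1
  funext x
  rw [sol_add hS (o := .g m (s + 1)) (as := [.g m s, .hU m s]) (by simp [PP.prU3]) x,
    MP.packet_succ h.good R h.lt hs x]
  simp [h1, hg, opr]

/-- **The packets.** -/
theorem g (hs : s ≤ M.L) : σ (.g m s) = M.packet F a s := by
  induction s with
  | zero => exact h.g0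
  | succ s ih => exact h.g_succ (by omega) (ih (by omega))

theorem U (hs : s < M.L) : σ (.U m s) = M.packU R a s := h.U_of hs (h.g hs.le)

theorem SA {j : ℕ} (hj : j < M.k) : σ (.SA m j) = fun _ => R.s j (pt M.κ (a ^^^ 2)) := by
  have hj' := Sol.range.1 h.solA j hj
  funext x
  have h1 := sol_lin hj' (o := .SA m j)
    (cs := R.s j (e M.κ 1) :: (List.range M.k).map ((M.pp R).sc j))
    (as := .one :: (List.range M.k).map (PP.ab m)) (by simp [MP.pp]) x
  rw [h1, List.zipWith_cons_cons, List.sum_cons,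
    zipWith_range ((M.pp R).sc j) (fun i => bF F (a.testBit i)) M.k
    (fun b => σ b x) (PP.ab m) fun i hi => by rw [h.bits i hi]]
  rw [RSys.s_xor_two, h.one]
  have := s_bits_lt R h.good.k_le h.lt (v := fun i => bF F (a.testBit i)) (fun _ _ => rfl) j
  rw [← this]
  simp only [mul_one]
  rw [add_comm]

theorem SB {j : ℕ} (hj : j < M.k) : σ (.SB m j) = fun _ => R.s j (pt M.κ (a ^^^ 3)) := by
  have hj' := Sol.range.1 h.solA j hj
  funext x
  have h1 := sol_lin hj' (o := .SB m j) (cs := [1, R.s j (e M.κ 0)]) (as := [.SA m j, .one])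
    (by simp [MP.pp]) x
  rw [h1, RSys.s_xor_three]
  simp [h.SA hj, h.one, RSys.s_xor_two]
  ring

theorem an {i : ℕ} (hi : i = 0 ∨ i = 1) :
    σ (.an m i) = fun _ => bF F (!a.testBit i) := by
  have hk := h.good.hk
  have hb := h.bits i (by rcases hi with rfl | rfl <;> omega)
  funext x
  rw [bF_not R h.good.κ_pos, sol_add h.solE (o := .an m i) (as := [.one, PP.ab m i])
    (by rcases hi with rfl | rfl <;> simp [PP.prE]) x]
  simp [h.one, hb]

theorem e0 : σ (.e0 m) = fun _ => bF F (decide (a % 4 = 0)) := by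
  funext x
  rw [sol_smul h.solE (o := .e0 m) (a := .an m 0) (b := .an m 1) (by simp [PP.prE]) x,
    h.an (Or.inl rfl), h.an (Or.inr rfl), ← bF_and]
  congr 1
  have h0 : a.testBit 0 = decide (a % 2 = 1) := by simp [Nat.testBit_zero]
  have h1 : a.testBit 1 = decide (a / 2 % 2 = 1) := by
    rw [Nat.testBit_succ, Nat.testBit_zero]
  rw [h0, h1, Bool.eq_iff_iff]
  simp only [Bool.and_eq_true, Bool.not_eq_true', decide_eq_false_iff_not, decide_eq_true_eq]
  omega

theorem e1 : σ (.e1 m) = fun _ => bF F (decide (a % 4 = 1)) := by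
  funext x
  have hk := h.good.hk
  rw [sol_smul h.solE (o := .e1 m) (a := .an m 1) (b := PP.ab m 0) (by simp [PP.prE]) x,
    h.an (Or.inr rfl), h.bits 0 (by omega), ← bF_and]
  congr 1
  have h0 : a.testBit 0 = decide (a % 2 = 1) := by simp [Nat.testBit_zero]
  have h1 : a.testBit 1 = decide (a / 2 % 2 = 1) := by
    rw [Nat.testBit_succ, Nat.testBit_zero]
  rw [h0, h1, Bool.eq_iff_iff]
  simp only [Bool.and_eq_true, Bool.not_eq_true', decide_eq_false_iff_not, decide_eq_true_eq]
  omega

end Pkt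

/-- Hypotheses on the updates of the bank `b` in the mode `m`. -/
structure Upn (M : MP) (R : RSys M.κ F) (pub : ℕ → Ct M.κ F) (σ : Nm → Ct M.κ F) (m b : Bool)
    (a : ℕ) (c : Cont M.κ F) (v : F) : Prop where
  pkt : Pkt M R pub σ m a
  sol : Sol M.k M.off R pub σ ((M.pp R).prN m b)
  w : σ (.w b) = c.w b
  P : ∀ s < M.L, σ (.P b s) = c.P b s
  Q : σ (.Q b) = c.Q b
  LA : σ (.LA b) = R.ldeW M.k (M.inA (c.w b))
  LB : σ (.LB b) = R.ldeW M.k (M.inB (c.w b))
  val : σ (.V b) (pt M.κ a) = v

namespace Upn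

variable {m b : Bool} {a : ℕ} {c : Cont M.κ F} {v : F} (h : Upn M R pub σ m b a c v)

include h

theorem sol1 : Sol M.k M.off R pub σ ((M.pp R).prN1 m b) := (Sol.append.1 h.sol).1

theorem sol2 : Sol M.k M.off R pub σ ((M.pp R).prN2 m b) :=
  (Sol.append.1 (Sol.append.1 h.sol).2).1

theorem sol3 : Sol M.k M.off R pub σ ((M.pp R).prN3 m b) :=
  (Sol.append.1 (Sol.append.1 h.sol).2).2

/-- the value of the slot -/
theorem vv : σ (.v m b) = fun _ => v := by
  have h1 := sol_un h.sol1 (o := .rv m b) (a := .V b) (m := .ch)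
    (as := (List.range M.k).map (PP.ab m)) (by simp [PP.prN1, MP.pp])
  have h2 := sol_un h.sol1 (o := .v m b) (a := .rv m b) (m := .sum) (as := []) (by simp [PP.prN1])
  rw [h.pkt.ch] at h1
  rw [h2, h1]
  funext x
  rw [← h.val]
  exact sum_dl h.pkt.lt' _

/-- **The data word.** -/
theorem wn : σ (.wn m b) = (M.addS R c b a v).w b := by
  funext x
  have h1 := sol_smul h.sol1 (o := .wd m b) (a := .v m b) (b := .g m 0) (by simp [PP.prN1]) x
  rw [sol_add h.sol1 (o := .wn m b) (as := [.w b, .wd m b]) (by simp [PP.prN1]) x]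
  simp only [List.map_cons, List.map_nil, List.sum_cons, List.sum_nil, add_zero, h1, h.w, h.vv,
    h.pkt.g0, MP.packet, MP.pos, dl, MP.addS, if_true]
  by_cases hx : num x = a <;> simp [hx]

/-- **The products of the stages.** -/
theorem Pn {s : ℕ} (hs : s < M.L) : σ (.Pn m b s) = (M.addS R c b a v).P b s := by
  have hS := Sol.range.1 h.sol2 s hs
  funext x
  have h1 := sol_smul hS (o := .Pd m b s) (a := .v m b) (b := .U m s) (by simp) x
  rw [sol_add hS (o := .Pn m b s) (as := [.P b s, .Pd m b s]) (by simp) x]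
  simp only [List.map_cons, List.map_nil, List.sum_cons, List.sum_nil, add_zero, h1, h.P s hs, h.vv,
    h.pkt.U hs, MP.packU, MP.addS, hs, and_self, if_true]
  ring

/-- **The products of the gates.** -/
theorem Qn : σ (.Qn m b) = (M.addS R c b a v).Q b := by
  have q1 := sol_un h.sol3 (o := .q1 m b) (a := .LB b) (m := .LL)
    (as := (List.range M.k).map (.SA m)) (by simp [PP.prN3, MP.pp])
  have q2 := sol_un h.sol3 (o := .q2 m b) (a := .LA b) (m := .LL)
    (as := (List.range M.k).map (.SB m)) (by simp [PP.prN3, MP.pp])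
  rw [Pkt.LL_of (fun j hj => h.pkt.SA hj), h.LB] at q1
  rw [Pkt.LL_of (fun j hj => h.pkt.SB hj), h.LA] at q2
  funext x
  have q3 := sol_smul h.sol3 (o := .q3 m b) (a := .e0 m) (b := .q1 m b) (by simp [PP.prN3]) x
  have q4 := sol_smul h.sol3 (o := .q4 m b) (a := .e1 m) (b := .q2 m b) (by simp [PP.prN3]) x
  have q5 := sol_add h.sol3 (o := .q5 m b) (as := [.q3 m b, .q4 m b]) (by simp [PP.prN3]) x
  have q6 := sol_smul h.sol3 (o := .q6 m b) (a := .v m b) (b := .q5 m b) (by simp [PP.prN3]) x
  rw [sol_add h.sol3 (o := .Qn m b) (as := [.Q b, .q6 m b]) (by simp [PP.prN3]) x]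
  simp only [List.map_cons, List.map_nil, List.sum_cons, List.sum_nil, add_zero] at q5 ⊢
  rw [q6, q5, q3, q4, q1, q2, h.Q, h.vv, h.pkt.e0, h.pkt.e1]
  simp only [MP.addS, if_true]
  by_cases h0 : a % 4 = 0
  · simp [h0]
  · by_cases h1 : a % 4 = 1
    · simp [h1]
    · simp [h0, h1]

end Upn

end

end Vale.Agent.P330.H118
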